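import Mathlib

/-! Holomorphic maps between arbitrary subsets of complex vector spaces (reduced complex spaces):
definitions. -/

open Set

namespace Vale.Agent.P274.Z

variable {X Y : Type*} [NormedAddCommGroup X] [NormedSpace ℂ X]
  [NormedAddCommGroup Y] [NormedSpace ℂ Y]

/-- `f` is holomorphic on the subset `U` of `X`: locally on `U` it is the restriction of a
holomorphic map defined on an open subset of the ambient space `X`. -/
def HolOn (f : X → Y) (U : Set X) : Prop :=
  ∀ x ∈ U, ∃ W : Set X, IsOpen W ∧ x ∈ W ∧ ∃ g : X → Y, DifferentiableOn ℂ g W ∧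
    ∀ y ∈ U ∩ W, f y = g y

/-- `f : U → V` is biholomorphic with inverse `g`, for arbitrary subsets `U`, `V`. -/
structure IsBihol (U : Set X) (V : Set Y) (f : X → Y) (g : Y → X) : Prop where
  hol : HolOn f U
  hol_inv : HolOn g V
  mapsTo : MapsTo f U V
  mapsTo_inv : MapsTo g V U
  left_inv : ∀ x ∈ U, g (f x) = x
  right_inv : ∀ y ∈ V, f (g y) = y

/-- `U` and `V` are biholomorphic. -/
def Bihol (U : Set X) (V : Set Y) : Prop := ∃ f g, IsBihol U V f g

end Vale.Agent.P274.Z
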