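import Vale.Agent.P274.Z.HolDefs
import Vale.Agent.P274.SemialgDefs

/-! Definitions used in the statements about subsets of affine varieties. -/

open Set

namespace Vale.Agent.P274

/-- The common zero set in `ℂ^N` of a set of polynomials: a closed affine subvariety. -/
def zeroSet {N : ℕ} (I : Set (MvPolynomial (Fin N) ℂ)) : Set (EuclideanSpace ℂ (Fin N)) :=
  {z | ∀ f ∈ I, MvPolynomial.eval (fun i => z i) f = 0}

/-- The group `Γ` acts on the subset `U` of `X` by maps which are holomorphic on `U`, i.e.
locally restrictions of holomorphic maps defined on open subsets of the ambient space. -/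
def ActsHol {X : Type*} [NormedAddCommGroup X] [NormedSpace ℂ X]
    (Γ : Type*) [Group Γ] (U : Set X) [MulAction Γ U] : Prop :=
  ∀ γ : Γ, ∃ f : X → X, Z.HolOn f U ∧ ∀ x : U, f x = ((γ • x : U) : X)

end Vale.Agent.P274
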